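/-
Row 198 chain, part 1: `body X δ` is a symmetric convex body (δ > 0, n > 0).   Author: helper198.
-/
import Claimed.Agent.R198.Defs

set_option autoImplicit false

namespace Claimed.Agent.R198

open Claims.C0343.MetricEntropyDuality
open scoped BigOperators Pointwise

/-- l1 ball of the coefficient space. -/
def l1ball (L n : ℕ) : Set ((Fin L → ℝ) × (Fin n → ℝ)) :=
  {z | (∑ l, |z.1 l|) + (∑ i, |z.2 i|) ≤ 1}

theorem abs_le_sum_abs {m : ℕ} (f : Fin m → ℝ) (j : Fin m) : |f j| ≤ ∑ l, |f l| :=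
  Finset.single_le_sum (f := fun l => |f l|) (fun _ _ => abs_nonneg _) (Finset.mem_univ j)

theorem sum_abs_nonneg {m : ℕ} (f : Fin m → ℝ) : 0 ≤ ∑ l, |f l| :=
  Finset.sum_nonneg (fun _ _ => abs_nonneg _)

theorem l1ball_isCompact (L n : ℕ) : IsCompact (l1ball L n) := by
  apply Metric.isCompact_of_isClosed_isBounded
  · have hc : Continuous fun z : (Fin L → ℝ) × (Fin n → ℝ) =>
        (∑ l, |z.1 l|) + (∑ i, |z.2 i|) := by fun_prop
    exact isClosed_le hc continuous_const
  · refine (Metric.isBounded_closedBall (x := (0 : (Fin L → ℝ) × (Fin n → ℝ))) (r := 1)).subset ?_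
    intro z hz
    have hz' : (∑ l, |z.1 l|) + (∑ i, |z.2 i|) ≤ 1 := hz
    rw [mem_closedBall_zero_iff, Prod.norm_def]
    apply max_le
    · rw [pi_norm_le_iff_of_nonneg zero_le_one]
      intro l
      rw [Real.norm_eq_abs]
      have h1 := abs_le_sum_abs z.1 l
      have h2 := sum_abs_nonneg z.2
      linarith
    · rw [pi_norm_le_iff_of_nonneg zero_le_one]
      intro i
      rw [Real.norm_eq_abs]
      have h1 := abs_le_sum_abs z.2 i
      have h2 := sum_abs_nonneg z.1
      linarith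

theorem body_eq_image {n L : ℕ} (X : Fin L → Fin n → ℝ) (δ : ℝ) :
    body X δ = (fun z : (Fin L → ℝ) × (Fin n → ℝ) => pt X δ z.1 z.2) '' l1ball L n := by
  ext x
  constructor
  · rintro ⟨mu, nu, h, rfl⟩
    exact ⟨(mu, nu), h, rfl⟩
  · rintro ⟨z, h, rfl⟩
    exact ⟨z.1, z.2, h, rfl⟩

theorem body_isCompact {n L : ℕ} (X : Fin L → Fin n → ℝ) (δ : ℝ) : IsCompact (body X δ) := by
  rw [body_eq_image]
  apply (l1ball_isCompact L n).image
  unfold pt
  fun_prop

theorem body_convex {n L : ℕ} (X : Fin L → Fin n → ℝ) (δ : ℝ) : Convex ℝ (body X δ) := by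
  rintro x ⟨mu, nu, h, rfl⟩ y ⟨mu', nu', h', rfl⟩ s t hs ht hst
  refine ⟨fun l => s * mu l + t * mu' l, fun i => s * nu i + t * nu' i, ?_, ?_⟩
  · have e1 : ∑ l, |s * mu l + t * mu' l| ≤ s * (∑ l, |mu l|) + t * (∑ l, |mu' l|) := by
      rw [Finset.mul_sum, Finset.mul_sum, ← Finset.sum_add_distrib]
      apply Finset.sum_le_sum
      intro l _
      calc |s * mu l + t * mu' l| ≤ |s * mu l| + |t * mu' l| := abs_add_le _ _
        _ = s * |mu l| + t * |mu' l| := by rw [abs_mul, abs_mul, abs_of_nonneg hs, abs_of_nonneg ht]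
    have e2 : ∑ i, |s * nu i + t * nu' i| ≤ s * (∑ i, |nu i|) + t * (∑ i, |nu' i|) := by
      rw [Finset.mul_sum, Finset.mul_sum, ← Finset.sum_add_distrib]
      apply Finset.sum_le_sum
      intro i _
      calc |s * nu i + t * nu' i| ≤ |s * nu i| + |t * nu' i| := abs_add_le _ _
        _ = s * |nu i| + t * |nu' i| := by rw [abs_mul, abs_mul, abs_of_nonneg hs, abs_of_nonneg ht]
    have e3 : s * ((∑ l, |mu l|) + (∑ i, |nu i|)) ≤ s * 1 := mul_le_mul_of_nonneg_left h hs
    have e4 : t * ((∑ l, |mu' l|) + (∑ i, |nu' i|)) ≤ t * 1 := mul_le_mul_of_nonneg_left h' ht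
    nlinarith
  · funext i
    simp only [pt, Pi.add_apply, Pi.smul_apply, smul_eq_mul]
    have : ∑ l, (s * mu l + t * mu' l) * X l i
        = s * (∑ l, mu l * X l i) + t * (∑ l, mu' l * X l i) := by
      rw [Finset.mul_sum, Finset.mul_sum, ← Finset.sum_add_distrib]
      apply Finset.sum_congr rfl
      intro l _
      ring
    rw [this]
    ring

theorem body_neg {n L : ℕ} (X : Fin L → Fin n → ℝ) (δ : ℝ) {x : RealSpace (Fin n)}
    (hx : x ∈ body X δ) : -x ∈ body X δ := by
  obtain ⟨mu, nu, h, rfl⟩ := hx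
  refine ⟨fun l => -mu l, fun i => -nu i, ?_, ?_⟩
  · simpa [abs_neg] using h
  · funext i
    simp only [pt, Pi.neg_apply, neg_mul, Finset.sum_neg_distrib, mul_neg]
    ring

theorem body_symm {n L : ℕ} (X : Fin L → Fin n → ℝ) (δ : ℝ) (x : RealSpace (Fin n)) :
    x ∈ body X δ ↔ -x ∈ body X δ := by
  constructor
  · exact body_neg X δ
  · intro h
    have := body_neg X δ h
    simpa using this

theorem body_interior {n L : ℕ} (X : Fin L → Fin n → ℝ) {δ : ℝ} (hδ : 0 < δ) (hn : 0 < n) :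
    (interior (body X δ)).Nonempty := by
  refine ⟨0, ?_⟩
  rw [mem_interior_iff_mem_nhds]
  have hr : 0 < δ / n := div_pos hδ (by exact_mod_cast hn)
  refine Filter.mem_of_superset (Metric.ball_mem_nhds (0 : Fin n → ℝ) hr) ?_
  intro x hx
  rw [mem_ball_zero_iff, pi_norm_lt_iff hr] at hx
  refine ⟨0, fun i => x i / δ, ?_, ?_⟩
  · have h1 : ∑ i, |x i / δ| ≤ ∑ _i : Fin n, (1 : ℝ) / n := by
      apply Finset.sum_le_sum
      intro i _
      have := hx i
      rw [Real.norm_eq_abs] at this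
      rw [abs_div, abs_of_pos hδ, div_le_div_iff₀ hδ (by exact_mod_cast hn)]
      have h2 : |x i| * n < δ := by
        rwa [lt_div_iff₀ (by exact_mod_cast hn)] at this
      linarith
    have h2 : ∑ _i : Fin n, (1 : ℝ) / n = 1 := by
      rw [Finset.sum_const, Finset.card_univ, Fintype.card_fin, nsmul_eq_mul]
      field_simp
    simp only [Pi.zero_apply, abs_zero, Finset.sum_const_zero, zero_add]
    linarith
  · funext i
    simp only [pt, Pi.zero_apply, zero_mul, Finset.sum_const_zero, zero_add]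
    field_simp

theorem body_isBody {n L : ℕ} (X : Fin L → Fin n → ℝ) {δ : ℝ} (hδ : 0 < δ) (hn : 0 < n) :
    IsSymmetricConvexBody (body X δ) where
  isCompact := body_isCompact X δ
  convex := body_convex X δ
  symmetric := body_symm X δ
  interior_nonempty := body_interior X hδ hn

end Claimed.Agent.R198
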